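import Vale.Agent.P277W66.Loc
import Vale.Agent.P277Z.St.First
import Vale.Agent.P277Z.St.Prime

/-!
# P277W: generalized lc pairs (row GLC)
-/

open scoped Topology
open Vale.Agent.P272.K Vale.Agent.P285.H281.FD Vale.Agent.P277 Vale.Agent.P277Z.St Set Filter
open Function Vale.Agent.P277W

noncomputable section

namespace Vale.Agent.P277W83

theorem ord_zero {F ζ : Cm 4 → ℂ} {z : Cm 4} {k : ℤ} (h : Eqn ζ z) (a : Ord F ζ z k)
    (h1 : AnalyticAt ℂ F z) (h2 : F z ≠ 0) : k = 0 :=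
  (oun F ζ z k h a).1 0 ⟨F, h1, h2, .of_forall fun w _ => by simp⟩

theorem cart_zero {X : CSp} {ι : Type} {P : ι → Set X.pt} {n : ι → ℤ} {L : Bd X.pt}
    {σ : L.ι → X.pt → ℂ} (h : IsCart X P n L σ) {g : Cm 4 → X.pt} {z : Cm 4} {ζ : Cm 4 → ℂ}
    {i : L.ι} {k : ℤ} (hg : IsCh X g z) (hζ : Eqn ζ z) (hi : g z ∈ L.U i) (hP : ∀ t, g z ∉ P t)
    (a : Ord (fun w => σ i (g w)) ζ z k) : k = 0 :=
  have h0 : g z ∉ ⋃ t, P t := fun e => let ⟨t, ht⟩ := mem_iUnion.1 e; hP t ht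
  ord_zero hζ a (hg.1.2 _ (h.sec.holo i _ h0 hi)) (h.ne i _ hi h0)

/-- **GLC** -/
theorem glc (smo : SMO) (locp : LOCP) : GLC := by
  classical
  rintro X G s e q P h hn hk hf N hX hs hd ⟨F, hF⟩
  refine ⟨F.toQC q h.qi, ?_⟩
  rintro W (p : W.pt → G.X'.pt) hW ⟨A' : Set G.X'.pt, b' : IsBim W G.X' p A'⟩ g z ζ h1 h2 -
    (i : F.K.ι) (a : ∀ t, (F.C (q t)).L.ι) (l : ∀ j, (G.M j).L.ι)
    (hi : G.π (p (g z)) ∈ F.K.U i) (ha : ∀ t, G.π (p (g z)) ∈ (F.C (q t)).L.U (a t))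
    (hl : ∀ j, p (g z) ∈ (G.M j).L.U (l j)) κ o (ν : Fin G.k → ℤ)
    (o1 : Ord (F.η i fun w => G.π (p (g w))) ζ z κ)
    (o2 : ∀ t, Ord (fun w => (F.C (q t)).σ (a t) (G.π (p (g w)))) ζ z (o t))
    (o3 : ∀ j, Ord (fun w => (G.M j).σ (l j) (p (g w))) ζ z (ν j))
  show -(κ : ℝ) / F.m + ∑ t, (h.gp hn hk hf).d t * o t / (F.C (q t)).r -
    ∑ j, G.μ j * ν j / (G.M j).r ≤ 1
  obtain ⟨A, b⟩ := G.bim
  have hp : ∀ x, HolMap W G.X' p x := fun x => ⟨b'.cont.continuousAt, b'.holo x⟩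
  have hπ : ∀ x, HolMap G.X' X G.π x := fun x => ⟨b.cont.continuousAt, b.holo x⟩
  let T : Bool ⊕ Fin s ⊕ Fin s ⊕ Fin e → Set W.pt := fun c => p ⁻¹'
    Sum.elim (fun c => cond c A' (G.π ⁻¹' A)) (Sum.elim (fun t => G.π ⁻¹' (q t).1) fun u => (P u).1) c
  have hT : ∀ c, IsAn W univ (T c) ∧ Dense (T c)ᶜ := by
    rintro ((_ | _) | t | u)
    · exact ⟨(b.an.preimage hπ).preimage hp, Fst.bim_dense b' b.dense⟩
    · exact ⟨b'.an.preimage hp, b'.dense⟩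
    · exact ⟨((q t).2.an.preimage hπ).preimage hp, Fst.bim_dense b'
        (Fst.bim_dense b (dense_compl_of_dimLe (by norm_num) hX.dense (q t).2.dim))⟩
    · exact ⟨(P u).2.an.preimage hp,
        Fst.bim_dense b' (dense_compl_of_dimLe (by norm_num) hn.dense (P u).2.dim)⟩
  have t1 : ContinuousAt (fun w => p (g w)) z := (hp _).1.comp h1.1.1
  have t2 : ContinuousAt (fun w => G.π (p (g w))) z := (hπ _).1.comp t1
  have ev : ∀ᶠ w in 𝓝 z, ζ w = 0 → IsCh W g w ∧ Eqn ζ w ∧ G.π (p (g w)) ∈ F.K.U i ∧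
      Ord (F.η i fun w => G.π (p (g w))) ζ w κ ∧
      (∀ t, G.π (p (g w)) ∈ (F.C (q t)).L.U (a t) ∧
        Ord (fun w => (F.C (q t)).σ (a t) (G.π (p (g w)))) ζ w (o t)) ∧
      ∀ j, p (g w) ∈ (G.M j).L.U (l j) ∧ Ord (fun w => (G.M j).σ (l j) (p (g w))) ζ w (ν j) := by
    filter_upwards [h1.eventually, (oun _ _ _ _ h2 o1).2,
      t2.eventually ((F.can.lb.isOpen i).mem_nhds hi),
      eventually_all.2 fun t => (oun _ _ _ _ h2 (o2 t)).2.and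
        (t2.eventually (((F.C (q t)).cart.lb.isOpen _).mem_nhds (ha t))),
      eventually_all.2 fun j => (oun _ _ _ _ h2 (o3 j)).2.and
        (t1.eventually (((G.M j).cart.lb.isOpen _).mem_nhds (hl j)))] with w c1 c2 c3 c4 c5 e
    exact ⟨c1, (c2 e).1, c3, (c2 e).2, fun t => ⟨(c4 t).2, ((c4 t).1 e).2⟩,
      fun j => ⟨(c5 j).2, ((c5 j).1 e).2⟩⟩
  by_cases hc : ∀ᶠ w in 𝓝 z, ζ w = 0 → g w ∈ ⋃ c, T c
  · obtain ⟨E, hE, hz⟩ := locp W _ g z ζ (smo W ⟨g z⟩ hW) (Pr.an_iUnion fun c => (hT c).1)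
      (compl_iUnion T ▸ dense_iInter_of_isOpen
        (fun c => (isClosed_of_isAn (hT c).1).isOpen_compl) fun c => (hT c).2) h1 h2 hc
    obtain ⟨w, ⟨w1, w2⟩, w3⟩ := (hz.and_eventually ev).exists
    obtain ⟨c1, c2, c3, c4, c5, c6⟩ := w3 w1
    have k := hF W p ⟨hW, A', b'⟩ ⟨E, hE⟩ (extend q (fun t => o t / (F.C (q t)).r) 0) (κ / F.m)
      (fun j => ν j / (G.M j).r) (fun Q hQ => ?_) ⟨κ, ⟨i, g, w, ζ, c1, c3, c2, w2, c4⟩, rfl⟩
      fun j => ⟨ν j, ⟨l j, g, w, ζ, c1, (c6 j).1, c2, w2, (c6 j).2⟩, rfl⟩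
    · rw [Finsupp.sum_of_support_subset _ (s := Finset.univ.map ⟨q, h.qi⟩) (fun Q hQ => ?_) _
        fun _ _ => zero_mul _, Finset.sum_map] at k
      · simp only [Embedding.coeFn_mk, h.qi.extend_apply, hd] at k
        simp only [mul_div_assoc, neg_div]
        linarith
      · obtain ⟨t, rfl⟩ := hs hQ
        exact Finset.mem_map.2 ⟨t, Finset.mem_univ _, rfl⟩
    · obtain ⟨t, rfl⟩ := hs hQ
      exact ⟨o t, ⟨a t, g, w, ζ, c1, (c5 t).1, c2, w2, (c5 t).2⟩, h.qi.extend_apply _ _ t⟩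
  obtain ⟨w, w1, w3⟩ := ((not_eventually.1 hc).and_eventually ev).exists
  obtain ⟨w1, w2⟩ := Classical.not_imp.1 w1
  obtain ⟨c1, c2, c3, c4, c5, c6⟩ := w3 w1
  have w4 : ∀ c, g w ∉ T c := fun c k => w2 (mem_iUnion.2 ⟨c, k⟩)
  have c7 := cht W _ p A' g w b' c1 (w4 (.inl true))
  have c8 := cht _ _ G.π A _ w b c7 (w4 (.inl false))
  have e1 : κ = 0 := ord_zero c2 c4 (F.can.an i _ w c8 c3).2 (F.can.an i _ w c8 c3).1
  have e2 : ∀ t, o t = 0 := fun t => cart_zero ((F.toQC q h.qi).cart t) c8 c2 (c5 t).1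
    (fun t => w4 (.inr (.inl t))) (c5 t).2
  have e3 : ∀ j, ν j = 0 := fun j => cart_zero ((G.M j).enl P h.pi (h.supp j)) c7 c2 (c6 j).1
    (fun u => w4 (.inr (.inr u))) (c6 j).2
  simp [e1, e2, e3]

end Vale.Agent.P277W83
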