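import Vale.Agent.P277W.Rows
import Vale.Agent.P277Z.Fin.Red
import Vale.Agent.P277Z.St.First
import Vale.Agent.P285WB.Rem

/-!
# P277W: images of prime divisors (rows IMG, SURJ, THIN)
-/

open scoped Topology
open Vale.Agent.P272.K Vale.Agent.P285.H281.FD Vale.Agent.P277 Vale.Agent.P277Z.St Set Filter
open Vale.Agent.P277Z Vale.Agent.P277Z.Val Vale.Agent.P277W Vale.Agent.P277Z.St.Pr

noncomputable section

namespace Vale.Agent.P277W83

variable {X Y : CSp}

theorem an_img {V : Lg} {q : V.W → X.pt} (hq : Pj.HolTo 4 X q) (l : Fin V.r) :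
    IsAn X univ (q '' V.G l) :=
  P285WB.remx 4 { X := V.W } X q _ ⟨hq.cont, hq.hol⟩ (U.isAnAt_G V l)

theorem hol_comp {V : Lg} {q : V.W → X.pt} (hq : Pj.HolTo 4 X q) {f : X.pt → Y.pt}
    (hf : ∀ x, HolMap X Y f x) : Pj.HolTo 4 Y fun y => f (q y) :=
  ⟨(continuous_iff_continuousAt.2 fun x => (hf x).1).comp hq.cont,
    fun _ g hg => hq.hol _ (g ∘ f) ((hf _).2 g hg)⟩

theorem prime_img {V : Lg} {q : V.W → X.pt} (hq : Pj.HolTo 4 X q) {l : Fin V.r}
    (h : ¬ DimLe X 2 (q '' V.G l)) : IsPrime X (q '' V.G l) :=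
  ⟨an_img hq l, fun _ _ => irr_img hq l, dim_img hq (thin_G V l), h⟩

/-- a prime divisor below is the image of a component of a log resolution -/
theorem exists_comp (hX : IsNormal 4 X) {f : X.pt → Y.pt} (hf : ∀ x, HolMap X Y f x)
    (hs : Function.Surjective f) {D : Set Y.pt} (hD : IsPrime Y D) (hd : Dense (f ⁻¹' D)ᶜ) :
    ∃ (V : Lg) (q : V.W → X.pt) (l : Fin V.r), Pj.HolTo 4 X q ∧ D = f '' (q '' V.G l) := by
  obtain ⟨V, p, exc, hr, hE⟩ := logres_of Glc.ghRes0 Glc.ghPrin Glc.ghComp GH.fam X hX _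
    (hD.an.preimage hf) hd
  have hq := hol_comp (res_hol hr) hf
  obtain ⟨l, hl⟩ := prime_eq hq (an_img hq) hD fun x hx => by
    obtain ⟨x, rfl⟩ := hs x
    obtain ⟨y, rfl⟩ := hr.surj x
    exact ⟨y, hE y hx, rfl⟩
  exact ⟨V, p, l, res_hol hr, by rw [image_image]; exact hl⟩

theorem exists_comp' (hX : IsNormal 4 X) {E : Set X.pt} (hE : IsPrime X E) :
    ∃ (V : Lg) (q : V.W → X.pt) (l : Fin V.r), Pj.HolTo 4 X q ∧ E = q '' V.G l := by
  simpa using exists_comp hX (f := id) (fun x => ⟨continuousAt_id, fun _ k => k⟩)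
    Function.surjective_id hE (dense_compl_of_dimLe (by norm_num) hX.dense hE.dim)

/-- **IMG** -/
theorem img : IMG := fun X Y f E hX hf hE hn => by
  obtain ⟨V, q, l, hq, rfl⟩ := exists_comp' hX hE
  rw [image_image] at hn ⊢
  exact prime_img (hol_comp hq hf) hn

/-- **SURJ** -/
theorem surj : SURJ := fun X Y f A D hX hY b hD => by
  have hf : ∀ x, HolMap X Y f x := fun x => ⟨b.cont.continuousAt, b.holo x⟩
  obtain ⟨V, q, l, hq, rfl⟩ := exists_comp hX hf b.surj hD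
    (Fst.bim_dense b (dense_compl_of_dimLe (by norm_num) hY.dense hD.dim))
  exact ⟨_, prime_img hq fun k => hD.dim' (k.image fun x _ => hf x), rfl⟩

/-- **THIN** -/
theorem thin : THIN := fun X E T hX hE hT hn => by
  obtain ⟨V, q, l, hq, rfl⟩ := exists_comp' hX hE
  refine (dim_img hq (thin_an (anAt_pre hq hT) fun k => hn (image_subset_iff.2 k))).mono ?_
  rintro _ ⟨⟨y, hy, rfl⟩, hx⟩
  exact ⟨y, ⟨hy, hx⟩, rfl⟩

end Vale.Agent.P277W83
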