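import Vale.Agent.P277W.Rows
import Vale.Agent.P277Z.GH.KahA

/-!
# P277W: the Kähler cone, Kähler spaces, nef line bundles (rows KC, KAH, NEF)
-/

open scoped Topology ContDiff ComplexOrder
open Vale.Agent.P272.K Vale.Agent.P285.H281.FD Vale.Agent.P277 Vale.Agent.P277Z.St Set Filter
open Vale.Agent.P277Z Vale.Agent.P277Z.GH.Ka Vale.Agent.P277W
open Vale.Agent.P284Z (levi cHess_psd_iff)
open Vale.Agent.P284Y.Lib (levi_hol levi_add levi_contAt levi_const_mul levi_smul two_le_inf)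

noncomputable section

namespace Vale.Agent.P277W83

variable {X : CSp} {x : X.pt} {u v : X.pt → ℝ}

theorem sm_near (hu : Sm X u x) : ∀ᶠ y in 𝓝 x, Sm X u y :=
  let ⟨N, k, V, Ω, h, φ, ψ, k1, k2, k3, k4⟩ := hu
  mem_of_superset (k2.isOpen.mem_nhds k1) fun _ hy => ⟨N, k, V, Ω, h, φ, ψ, hy, k2, k3, k4⟩

theorem sp_near (hu : Sp X u x) : ∀ᶠ y in 𝓝 x, Sp X u y :=
  let ⟨N, k, V, Ω, h, φ, ψ, k1, k2, k3, k4⟩ := hu
  mem_of_superset (k2.isOpen.mem_nhds k1) fun _ hy => ⟨N, k, V, Ω, h, φ, ψ, hy, k2, k3, k4⟩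

theorem sm_lin (hu : Sm X u x) (hv : Sm X v x) (s t : ℝ) :
    Sm X (fun y => s * u y + t * v y) x := by
  obtain ⟨N, k, V, Ω, h, φ, hx, hM⟩ := X.model x
  obtain ⟨a, a1, a2⟩ := sm_lift hM hx (holMap_id x) hu
  obtain ⟨b, b1, b2⟩ := sm_lift hM hx (holMap_id x) hv
  refine sm_of hM hx (ψ := fun z => s * a z + t * b z) ?_ ?_
  · filter_upwards [a1, b1] with z h1 h2 using
      (contDiffAt_const.mul h1).add (contDiffAt_const.mul h2)
  · filter_upwards [a2, b2] with y h1 h2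
    rw [← h1, ← h2, id]

theorem sm_zero (x : X.pt) : Sm X (fun _ => 0) x :=
  let ⟨_, _, _, _, _, _, hx, hM⟩ := X.model x
  sm_of hM hx (ψ := fun _ => 0) (.of_forall fun _ => contDiffAt_const) (.of_forall fun _ => rfl)

theorem ddc_lin (c : Ch X) (hu : Sm X u (c.g c.z)) (hv : Sm X v (c.g c.z)) (s t : ℝ) :
    ddc (fun y => s * u y + t * v y) c = s • ddc u c + t • ddc v c := by
  have h1 := sm_two c.ch.1 hu
  have h2 := sm_two c.ch.1 hv
  exact (C2.cHess_add (contDiffAt_const.mul h1) (contDiffAt_const.mul h2)).trans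
    (congrArg₂ (· + ·) (C2.cHess_const_mul s h1) (C2.cHess_const_mul t h2))

theorem ddc_zero (c : Ch X) : ddc (fun _ : X.pt => (0 : ℝ)) c = 0 := C2.cHess_const 0

theorem sp_lin (hu : Sp X u x) (hv : Sp X v x) {s t : ℝ} (hs : 0 < s) (ht : 0 ≤ t) :
    Sp X (fun y => s * u y + t * v y) x := by
  obtain ⟨N, k, V, Ω, h, φ, ψ, hx, hM, k3, k4⟩ := hu
  obtain ⟨N', k', V', Ω', h', χ, υ, l1, l2, l3, l4⟩ := hv
  obtain ⟨Γ, g1, g2⟩ := lift hM hx (F := χ) fun a => l2.isCoord.hol a _ l1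
  have g3 : ∀ᶠ z in 𝓝 (Γ (φ x)), z ∈ Ω' := by
    rw [← g2.self_of_nhds]
    exact l2.isOpen'.mem_nhds (mem_Ω l2 l1)
  refine sp_of hM hx (ψ := fun z => s * ψ z + t * υ (Γ z)) ?_ ?_
  · filter_upwards [hM.isOpen'.mem_nhds (mem_Ω hM hx), sm_an g1 (g3.mono fun z hz => (l3 z hz).1),
      g1.eventually_analyticAt, g1.continuousAt.eventually g3] with z h1 h2 h3 h4
    have h5 := (k3 z h1).1.of_le two_le_inf
    have h6 := h2.of_le two_le_inf
    have h7 := (l3 _ h4).1.of_le two_le_inf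
    have h8 := (contDiffAt_const (c := s).mul (k3 z h1).1).add (contDiffAt_const (c := t).mul h2)
    refine ⟨h8, Pos.RbAux.posDef_of_levi (h8.of_le two_le_inf) fun ξ hξ => ?_⟩
    rw [levi_add (contDiffAt_const.mul h5) (contDiffAt_const.mul h6), levi_const_mul h5,
      levi_const_mul h6, levi_hol h3 h7]
    exact add_pos_of_pos_of_nonneg (mul_pos hs (levi_pos h5 (k3 z h1).2 hξ))
      (mul_nonneg ht ((cHess_psd_iff h7).1 (l3 _ h4).2.posSemidef _))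
  · filter_upwards [hM.isOpen.mem_nhds hx, l2.isOpen.mem_nhds l1, g2] with y h1 h2 h3
    rw [k4 y h1, l4 y h2, h3]

/-- small perturbations of strictly plurisubharmonic functions -/
theorem sp_pert (hu : Sp X u x) (hv : Sm X v x) :
    ∀ᶠ q : ℝ × X.pt in 𝓝 (0, x), Sp X (fun y => 1 * u y + q.1 * v y) q.2 := by
  obtain ⟨N, k, V, Ω, h, φ, ψ, hx, hM, k3, k4⟩ := hu
  obtain ⟨b, b1, b2⟩ := sm_lift hM hx (holMap_id x) hv
  have a1 : ∀ᶠ z in 𝓝 (φ x), z ∈ Ω := hM.isOpen'.mem_nhds (mem_Ω hM hx)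
  have a2 := (k3 _ a1.self_of_nhds).1.of_le two_le_inf
  have b3 := b1.self_of_nhds.of_le two_le_inf
  have e1 : ∀ᶠ p : ℝ × Cm N in 𝓝 (0, φ x), ∀ ξ ∈ Metric.sphere (0 : Cm N) 1,
      0 < levi ψ p.2 ξ + p.1 * levi b p.2 ξ := by
    refine (isCompact_sphere (0 : Cm N) 1).eventually_forall_of_forall_eventually fun ξ hξ => ?_
    have c1 : ∀ {f : Cm N → ℝ}, ContDiffAt ℝ 2 f (φ x) → ContinuousAt
        (fun r : (ℝ × Cm N) × Cm N => levi f r.1.2 r.2) ((0, φ x), ξ) := fun hf =>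
      ContinuousAt.comp (f := fun r : (ℝ × Cm N) × Cm N => (r.1.2, r.2)) (levi_contAt hf)
        (by fun_prop)
    refine ((c1 a2).add (continuousAt_fst.fst.mul (c1 b3))).eventually (lt_mem_nhds ?_)
    simpa using levi_pos a2 (k3 _ a1.self_of_nhds).2 (ne_zero_of_mem_unit_sphere ⟨ξ, hξ⟩)
  have e2 : ∀ᶠ p : ℝ × Cm N in 𝓝 (0, φ x), ContDiffAt ℝ ∞ (fun z => 1 * ψ z + p.1 * b z) p.2 ∧
      (cHess (fun z => 1 * ψ z + p.1 * b z) p.2).PosDef := by
    filter_upwards [e1, continuousAt_snd.eventually a1, continuousAt_snd.eventually b1]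
      with p h1 h2 h3
    have h5 := (k3 _ h2).1.of_le two_le_inf
    have h6 := h3.of_le two_le_inf
    have h8 := (contDiffAt_const (c := 1).mul (k3 _ h2).1).add (contDiffAt_const (c := p.1).mul h3)
    refine ⟨h8, Pos.RbAux.posDef_of_levi (h8.of_le two_le_inf) fun ξ hξ => ?_⟩
    rw [levi_add (contDiffAt_const.mul h5) (contDiffAt_const.mul h6), levi_const_mul h5,
      levi_const_mul h6, one_mul]
    have hn := norm_pos_iff.2 hξ
    have h9 := h1 (‖ξ‖⁻¹ • ξ) (by simp [norm_smul, inv_mul_cancel₀ hn.ne'])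
    simp only [levi_smul] at h9
    exact pos_of_mul_pos_left (by linarith) (pow_pos (inv_pos.2 hn) 2).le
  have t1 : Tendsto (fun q : ℝ × X.pt => (q.1, φ q.2)) (𝓝 (0, x)) (𝓝 (0, φ x)) :=
    continuousAt_fst.prodMk (ContinuousAt.comp (f := Prod.snd) (hM.continuousAt hx) continuousAt_snd)
  filter_upwards [t1.eventually e2.eventually_nhds,
    continuousAt_snd.eventually (hM.isOpen.mem_nhds hx),
    continuousAt_snd.eventually b2.eventually_nhds] with q h1 h2 h3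
  have t2 : Tendsto (fun z : Cm N => (q.1, z)) (𝓝 (φ q.2)) (𝓝 (q.1, φ q.2)) :=
    (Continuous.prodMk_right q.1).continuousAt
  have h6 := t2.eventually h1
  refine sp_of hM h2 (ψ := fun z => 1 * ψ z + q.1 * b z) h6 ?_
  filter_upwards [hM.isOpen.mem_nhds h2, h3] with y h4 h5
  rw [k4 y h4, ← h5, id]

theorem loc_lin {P Q R : (X.pt → ℝ) → X.pt → Prop} {a b : Form X} (ha : a ∈ Loc P) (hb : b ∈ Loc Q)
    (s t : ℝ) (hP : ∀ u x, P u x → Sm X u x) (hQ : ∀ u x, Q u x → Sm X u x)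
    (h : ∀ u v x, P u x → Q v x → R (fun y => s * u y + t * v y) x) : s • a + t • b ∈ Loc R := by
  intro x
  obtain ⟨u, u1, u2⟩ := ha x
  obtain ⟨v, v1, v2⟩ := hb x
  refine ⟨_, h u v x u1 v1, ?_⟩
  filter_upwards [u2, v2, sm_near (hP u x u1), sm_near (hQ v x v1)] with y h1 h2 h3 h4 c hc
  rw [ddc_lin c (hc ▸ h3) (hc ▸ h4), ← h1 c hc, ← h2 c hc]
  rfl

theorem mem_loc {b : Form X} (hb : b ∈ Submodule.span ℝ (Loc (Sm X))) : b ∈ Loc (Sm X) := by
  induction hb using Submodule.span_induction with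
  | mem b h => exact h
  | zero => exact fun x => ⟨_, sm_zero x, .of_forall fun _ c _ => (ddc_zero c).symm⟩
  | add a b _ _ ha hb =>
    simpa using loc_lin ha hb 1 1 (fun _ _ => id) (fun _ _ => id) fun _ _ _ h h' => sm_lin h h' 1 1
  | smul t a _ ha =>
    simpa using loc_lin ha ha t 0 (fun _ _ => id) (fun _ _ => id) fun _ _ _ h h' => sm_lin h h' t 0

theorem mem_ddc {b : Form X} (hb : b ∈ Submodule.span ℝ (ddc '' {u | ∀ x, Sm X u x})) :
    ∃ u, (∀ x, Sm X u x) ∧ ddc u = b := by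
  induction hb using Submodule.span_induction with
  | mem b h => exact h
  | zero => exact ⟨_, sm_zero, funext ddc_zero⟩
  | add a b _ _ ha hb =>
    obtain ⟨u, u1, rfl⟩ := ha
    obtain ⟨v, v1, rfl⟩ := hb
    exact ⟨_, fun x => sm_lin (u1 x) (v1 x) 1 1, funext fun c => by
      simpa using ddc_lin c (u1 _) (v1 _) 1 1⟩
  | smul t a _ ha =>
    obtain ⟨u, u1, rfl⟩ := ha
    exact ⟨_, fun x => sm_lin (u1 x) (u1 x) t 0, funext fun c => by
      simpa using ddc_lin c (u1 _) (u1 _) t 0⟩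

/-- **KC** -/
theorem kc : KC := fun X => by
  refine ⟨fun a ha x => (ha x).imp fun u h => ⟨sp_sm h.1, h.2⟩, fun a ha b hb => ?_,
    fun a ha t ht => ?_, fun a ha b hb => ?_⟩
  · simpa using loc_lin ha hb 1 1 (fun _ _ => sp_sm) (fun _ _ => sp_sm)
      fun _ _ _ h h' => sp_lin h h' one_pos zero_le_one
  · simpa using loc_lin ha ha t 0 (fun _ _ => sp_sm) (fun _ _ => sp_sm)
      fun _ _ _ h h' => sp_lin h h' ht le_rfl
  have h1 : ∀ᶠ t : ℝ in 𝓝 0, ∀ x ∈ (univ : Set X.pt), ∃ u, Sp X u x ∧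
      ∀ᶠ y in 𝓝 x, ∀ c : Ch X, c.g c.z = y → (a + t • b) c = ddc u c := by
    refine isCompact_univ.eventually_forall_of_forall_eventually fun x _ => ?_
    obtain ⟨u, u1, u2⟩ := ha x
    obtain ⟨v, v1, v2⟩ := mem_loc hb x
    filter_upwards [sp_pert u1 v1, continuousAt_snd.eventually
      (((u2.and v2).and ((sm_near (sp_sm u1)).and (sm_near v1))).eventually_nhds)] with q h1 h2
    refine ⟨_, h1, h2.mono fun y h c hc => ?_⟩
    rw [ddc_lin c (hc ▸ h.2.1) (hc ▸ h.2.2), ← h.1.1 c hc, ← h.1.2 c hc, one_smul]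
    rfl
  obtain ⟨t, h2, h3⟩ := ((h1.filter_mono nhdsWithin_le_nhds).and
    (self_mem_nhdsWithin (s := Ioi (0 : ℝ)))).exists
  exact ⟨t, h3, fun x => h2 x trivial⟩

/-- the potentials of a Kähler form -/
theorem exists_pot {a : Form X} (ha : a ∈ Loc (Sp X)) : ∃ w : Pot X, w.Pos ∧
    ∀ i (c : Ch X), c.g c.z ∈ w.U i → a c = ddc (w.u i) c := by
  choose u u1 u2 using ha
  let U : X.pt → Set X.pt := fun x =>
    interior {y | Sp X (u x) y ∧ ∀ c : Ch X, c.g c.z = y → a c = ddc (u x) c}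
  have hU : ∀ x, ∀ y ∈ U x, Sp X (u x) y ∧ ∀ c : Ch X, c.g c.z = y → a c = ddc (u x) c :=
    fun x y hy => by have := interior_subset hy; exact this
  refine ⟨⟨X.pt, U, u, fun _ => isOpen_interior,
    fun x => ⟨x, mem_interior_iff_mem_nhds.2 ((sp_near (u1 x)).and (u2 x))⟩,
    fun i y hy => sp_sm (hU i y hy).1, fun i j y hi hj g z hc e => ?_⟩,
    fun i y hy => (hU i y hy).1, fun i c hc => (hU i _ hc).2 c rfl⟩
  subst e
  rw [C2.cHess_sub (sm_two hc.1 (sp_sm (hU i _ hi).1)) (sm_two hc.1 (sp_sm (hU j _ hj).1)),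
    sub_eq_zero]
  exact ((hU i _ hi).2 ⟨g, z, hc⟩ rfl).symm.trans ((hU j _ hj).2 ⟨g, z, hc⟩ rfl)

/-- **KAH** -/
theorem kah : KAH := fun _ ⟨_, ha⟩ => (exists_pot ha).imp fun _ h => h.1

theorem ph_of (h : ∀ c : Ch X, c.g c.z = x → ddc u c = 0) : Ph X u x :=
  fun g z hg e => h ⟨g, z, hg⟩ e

theorem ddc_eq (c : Ch X) {f p e w : X.pt → ℝ} (hp : Sm X p (c.g c.z)) (hu : Sm X u (c.g c.z))
    (he : Sm X e (c.g c.z)) (hw : Sm X w (c.g c.z)) (s t : ℝ)
    (hf : ∀ y, f y = 1 * (1 * (1 * p y + s * u y) + t * e y) + -1 * w y) :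
    ddc f c = ddc p c + s • ddc u c + t • ddc e c - ddc w c := by
  have s1 := sm_lin hp hu 1 s
  rw [funext hf, ddc_lin c (sm_lin s1 he 1 t) hw, ddc_lin c s1 he, ddc_lin c hp hu]
  simp only [one_smul, neg_smul, sub_eq_add_neg]

/-- **NEF** -/
theorem nef (cone : CONE) : NEF := by
  rintro X C ⟨a, ha⟩ ⟨α, ⟨ψ, p1, p2, p3⟩, hα⟩
  obtain ⟨k1, k2, k3, k4⟩ := kc X
  obtain ⟨η, -, η2⟩ := exists_pot ha
  have hr : (0 : ℝ) < C.r := Nat.cast_pos.2 C.pos
  have hρ : 0 < 2 * Real.pi * C.r := by positivity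
  refine ⟨1, fun _ => η, fun δ hδ => ?_⟩
  obtain ⟨b, b1, b2⟩ := cone _ _ _ _ (k1.trans Submodule.subset_span) k2 k3 k4 _ hα _
    (k3 a ha (δ / 2 / (2 * Real.pi * C.r)) (by positivity))
  obtain ⟨u, u1, u2⟩ := mem_ddc b2
  obtain ⟨w, w1, w2⟩ := exists_pot (k3 b b1 _ hρ)
  refine ⟨fun _ => δ / 2, fun i y => 1 * ψ i y + -(2 * Real.pi * C.r) * u y, w,
    fun _ => ?_, w1, fun i x hx => sm_lin (p1 i x hx) (u1 x) _ _, fun i j x hi hj => ?_,
    fun i β c x hi hβ hc => ph_of fun ch e => ?_⟩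
  · rw [abs_of_pos (half_pos hδ)]
    exact half_lt_self hδ
  · beta_reduce
    rw [p2 i j x hi hj]
    ring
  subst e
  have h0 := hβ 0
  have e2 : ddc (ψ i) ch = (2 * Real.pi) • α ch := by
    rw [p3 i ch hi, smul_inv_smul₀ (by positivity)]
  rw [ddc_eq ch (p1 i _ hi) (u1 _) (η.sm _ _ h0) (w.sm _ _ hc) (-(2 * Real.pi * C.r)) (δ / 2)
    fun y => ?_, u2, ← η2 _ ch h0, ← w2 _ ch hc, e2]
  · simp only [Pi.sub_apply, Pi.add_apply, Pi.smul_apply]
    match_scalars <;> field_simp <;> ring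
  · simp only [Fin.sum_univ_one]
    ring

end Vale.Agent.P277W83
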